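import Vale.Agent.P039.H96.T2a

/-!
# STEP 2: the number of blacks of an alternating cycle
-/

namespace Vale.Agent.P039.H96

open Vale.Agent.P039.Bn Module

section bool

theorem bool1 : ∀ a : Fin 3 → Bool,
    (∑ j : Fin 3, if (a (j + 1) = true ∨ a (j + 2) = true) then 1 else 0) =
      (∑ j : Fin 3, if a j = true then 1 else 0) +
        (if ∃ j, a (j + 1) ≠ a (j + 2) then 1 else 0) := by decide

theorem bool2 : ∀ a : Fin 3 → Bool, (¬∃ j, a (j + 1) ≠ a (j + 2)) →
    (∑ j : Fin 3, if a j = true then 1 else 0) = if (∃ i, a i = true) then 3 else 0 := by decide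

theorem bool3 : ∀ (a : Fin 3 → Bool) (f g : Fin 3), f ≠ g →
    (∀ j, a (j + 1) ≠ a (j + 2) ↔ (j = f ∨ j = g)) →
    (∑ j : Fin 3, if a j = true then 1 else 0) + 2 = 3 + (if a f = true then 1 else 0) ∧
      ∃ i, a i = true := by decide

end bool

variable {B W V : Type} [Fintype B] [Fintype W] [Fintype V] [DecidableEq B] [DecidableEq W]
  [DecidableEq V] {M : PMap B W V} {X : Finset W} {K : B → Fin 3 → Prop}

omit [Fintype V] [DecidableEq V] [Fintype W] in
theorem sum_A (X : Finset W) : ∑ b, ∑ i, (if M.e i b ∈ X then 1 else 0) = 3 * X.card := by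
  rw [Finset.sum_comm]
  have h1 : ∀ i, ∑ b, (if M.e i b ∈ X then 1 else 0) = X.card := by
    intro i
    rw [← Finset.card_filter]
    have : (Finset.univ.filter fun b => M.e i b ∈ X) = X.map (M.e i).symm.toEmbedding := by
      ext b
      simp only [Finset.mem_filter, Finset.mem_univ, true_and, Finset.mem_map,
        Equiv.coe_toEmbedding]
      constructor
      · intro hb
        exact ⟨_, hb, Equiv.symm_apply_apply _ _⟩
      · rintro ⟨w, hw, rfl⟩
        rwa [Equiv.apply_symm_apply]
    rw [this, Finset.card_map]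
  rw [Finset.sum_congr rfl fun i _ => h1 i]
  simp

omit [Fintype V] [DecidableEq V] [Fintype W] in
theorem card_EX {S : Finset B} (hS : ∀ b, b ∈ S ↔ ∃ j, ¬(M.e (j + 1) b ∈ X ↔ M.e (j + 2) b ∈ X)) :
    (EX M X).card = 3 * X.card + S.card := by
  rw [EX, Finset.card_filter, Fintype.sum_prod_type, ← sum_A (M := M) X]
  have h1 : S.card = ∑ b, if b ∈ S then 1 else 0 := by
    rw [← Finset.card_filter]
    congr 1
    ext b
    simp
  rw [h1, ← Finset.sum_add_distrib]
  refine Finset.sum_congr rfl fun b _ => ?_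
  have h2 := bool1 fun j => decide (M.e j b ∈ X)
  simp only [decide_eq_true_eq, ne_eq, decide_eq_decide] at h2
  rw [h2]
  congr 1
  by_cases hb : b ∈ S
  · rw [if_pos hb, if_pos ((hS b).1 hb)]
  · rw [if_neg hb, if_neg (fun h => hb ((hS b).2 h))]

omit [DecidableEq V] [Fintype V] in
theorem card_VB {S : Finset B} (hS : ∀ b, b ∈ S ↔ ∃ j, ¬(M.e (j + 1) b ∈ X ↔ M.e (j + 2) b ∈ X)) :
    (VB M X).card + (VB M Xᶜ).card = Fintype.card B + S.card := by
  rw [← Finset.card_union_add_card_inter, ← Finset.card_univ]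
  congr 2
  · ext b
    simp only [Finset.mem_union, mem_VB, Finset.mem_compl, Finset.mem_univ, iff_true]
    by_cases h : M.e 0 b ∈ X
    · exact Or.inl ⟨0, h⟩
    · exact Or.inr ⟨0, h⟩
  · ext b
    rw [Finset.mem_inter, mem_VB, mem_VB, hS]
    simp only [Finset.mem_compl]
    constructor
    · rintro ⟨⟨i, hi⟩, i', hi'⟩
      by_contra hcon
      push Not at hcon
      have h1 := hcon (i + 1)
      have h2 := hcon (i + 2)
      rw [f11, f12] at h1
      rw [f21, f22] at h2
      rcases fcase i' i with rfl | rfl | rfl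
      · exact hi' hi
      · exact hi' (h2.1 hi)
      · exact hi' (h1.2 hi)
    · rintro ⟨j, hj⟩
      by_cases h1 : M.e (j + 1) b ∈ X
      · refine ⟨⟨_, h1⟩, j + 2, fun h2 => hj (iff_of_true h1 h2)⟩
      · refine ⟨⟨j + 2, ?_⟩, j + 1, h1⟩
        by_contra h2
        exact hj (iff_of_false h1 h2)

/-- **STEP 2.** -/
theorem t2 (M : PMap B W V) : M.T2 := by
  classical
  intro hSph f g S nx b0 hA hb0 hMt s I hs hI hbI hx
  let K : B → Fin 3 → Prop := fun b j => b ∈ S ∧ (j = f b ∨ j = g b)
  have hs0 : s ≠ 0 := by rcases hs with rfl | rfl <;> norm_num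
  have hxor : ∀ b j, K b j ↔ ¬(M.e (j + 1) b ∈ I ↔ M.e (j + 2) b ∈ I) := by
    intro b j
    have h1 := hx b j
    have h2 : (M.e (j + 1) b ∈ I ↔ M.e (j + 2) b ∈ I) ↔ PMap.cyc f g S b j = 0 := by
      rw [h1]
      by_cases ha : M.e (j + 1) b ∈ I <;> by_cases hc : M.e (j + 2) b ∈ I <;>
        simp [ha, hc, hs0]
    rw [h2]
    unfold PMap.cyc
    by_cases hb : b ∈ S
    · have hne := hA.ne b hb
      rw [if_pos hb]
      by_cases h3 : j = f b
      · have h4 : j ≠ g b := fun h => hne (h3.symm.trans h)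
        rw [if_pos h3, if_neg h4]
        simp only [K]
        norm_num
        exact ⟨hb, Or.inl h3⟩
      · rw [if_neg h3]
        by_cases h4 : j = g b
        · rw [if_pos h4]
          simp only [K]
          norm_num
          exact ⟨hb, Or.inr h4⟩
        · rw [if_neg h4]
          simp only [K]
          norm_num
          exact fun _ => ⟨h3, h4⟩
    · rw [if_neg hb]
      simp only [K]
      tauto
  have hSd : Side M K I := ⟨hxor⟩
  have hSd' : Side M K Iᶜ := ⟨fun b j => by
    rw [hxor, Finset.mem_compl, Finset.mem_compl]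
    tauto⟩
  obtain ⟨b1, hb1⟩ := hA.nonempty
  have hb1K : ∃ j, K b1 j := ⟨f b1, hb1, Or.inl rfl⟩
  have hconn : ∀ T : Set (B ⊕ V), Sum.inl b1 ∈ T → (∀ b j, K b j → (Sum.inl b ∈ T ↔
      Sum.inr (M.c j b) ∈ T)) → ∀ b j, K b j → Sum.inl b ∈ T := by
    intro T h1 h2 b j hk
    refine hA.single {b | Sum.inl b ∈ T} ⟨b1, hb1, h1⟩ (fun b hb hbT => ?_) b hk.1
    have h3 := (h2 b (f b) ⟨hb, Or.inl rfl⟩).1 hbT
    rw [hA.face b hb] at h3
    exact (h2 (nx b) (g (nx b)) ⟨hA.maps b hb, Or.inr rfl⟩).2 h3
  have hR1 := hSd.rank hSph.conn ⟨_, hbI 0⟩ hb1K hconn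
  obtain ⟨w1, hw1⟩ := hI
  have hR2 := hSd'.rank hSph.conn ⟨w1, by rw [Finset.mem_compl, not_not]; exact hw1⟩ hb1K hconn
  -- counting
  have hSmem : ∀ b, b ∈ S ↔ ∃ j, ¬(M.e (j + 1) b ∈ I ↔ M.e (j + 2) b ∈ I) := by
    intro b
    constructor
    · intro hb
      exact ⟨f b, (hxor b (f b)).1 ⟨hb, Or.inl rfl⟩⟩
    · rintro ⟨j, hj⟩
      exact ((hxor b j).2 hj).1
  have hSmem' : ∀ b, b ∈ S ↔ ∃ j, ¬(M.e (j + 1) b ∈ Iᶜ ↔ M.e (j + 2) b ∈ Iᶜ) := by
    intro b
    rw [hSmem]
    refine exists_congr fun j => ?_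
    rw [Finset.mem_compl, Finset.mem_compl]
    tauto
  have hE1 := card_EX hSmem
  have hE2 := card_EX hSmem'
  have hB := card_VB hSmem
  have hW : I.card + Iᶜ.card = Fintype.card B := by
    rw [Finset.card_add_card_compl, Fintype.card_congr (M.e 0)]
  -- vertices
  have hV : (VV M I).card + (VV M Iᶜ).card = Fintype.card V + S.card := by
    have h1 : S.card = (S.image fun b => M.c (g b) b).card := by
      rw [Finset.card_image_of_injOn]
      intro b hb b' hb' h
      exact hA.inj b hb b' hb' h
    rw [h1, ← Finset.card_union_add_card_inter, ← Finset.card_univ]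
    congr 2
    · ext v
      simp only [Finset.mem_union, mem_VV, Finset.mem_univ, iff_true]
      obtain ⟨j, b, rfl⟩ := M.surj v
      by_cases h : M.e (j + 1) b ∈ I
      · exact Or.inl ⟨b, j, Or.inl h, rfl⟩
      · exact Or.inr ⟨b, j, Or.inl (Finset.mem_compl.2 h), rfl⟩
    · ext v
      rw [Finset.mem_inter, mem_VV, mem_VV, Finset.mem_image]
      constructor
      · rintro ⟨⟨b, j, h2, rfl⟩, b', j', h3, h4⟩
        have hj := M.cls _ _ _ _ h4
        subst hj
        have key : ∃ b'', M.c j' b'' = M.c j' b ∧ K b'' j' := by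
          by_cases h5 : M.e (j' + 1) b' ∈ I ∨ M.e (j' + 2) b' ∈ I
          · refine ⟨b', h4, ?_⟩
            rw [hxor]
            simp only [Finset.mem_compl] at h3
            tauto
          · obtain ⟨b'', h6, h7⟩ := hSd.on h4 h5 h2
            exact ⟨b'', h6.trans h4, h7⟩
        obtain ⟨b'', h6, h7, h8⟩ := key
        rw [← h6]
        rcases h8 with h8 | h8
        · refine ⟨nx b'', hA.maps _ h7, ?_⟩
          rw [h8, hA.face _ h7]
        · exact ⟨b'', h7, by rw [h8]⟩
      · rintro ⟨b, hb, rfl⟩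
        have h2 := (hxor b (g b)).1 ⟨hb, Or.inr rfl⟩
        constructor
        · refine ⟨b, g b, ?_, rfl⟩
          tauto
        · refine ⟨b, g b, ?_, rfl⟩
          simp only [Finset.mem_compl]
          tauto
  -- the matching
  have hmatch : (VV M I).card = (VB M I).card := by
    have h0 : ∀ b ∈ VB M I, b ≠ b0 := by
      rintro b hb rfl
      obtain ⟨i, hi⟩ := (mem_VB M).1 hb
      exact hbI i hi
    have h1 : VV M I = (VB M I).image fun b => M.c (g b) b := by
      ext v
      rw [Finset.mem_image]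
      constructor
      · intro hv
        obtain ⟨b, j, h2, rfl⟩ := (mem_VV M).1 hv
        -- either `v` is on the cycle or all its corners touch `I`
        by_cases h3 : ∃ b'', M.c j b'' = M.c j b ∧ K b'' j
        · obtain ⟨b'', h6, h7, h8⟩ := h3
          have h9 : ∃ b' ∈ S, M.c (g b') b' = M.c j b := by
            rw [← h6]
            rcases h8 with h8 | h8
            · refine ⟨nx b'', hA.maps _ h7, ?_⟩
              rw [h8, hA.face _ h7]
            · exact ⟨b'', h7, by rw [h8]⟩
          obtain ⟨b', hb', h10⟩ := h9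
          refine ⟨b', ?_, h10⟩
          have h11 := (hxor b' (g b')).1 ⟨hb', Or.inr rfl⟩
          rw [mem_VB]
          by_cases h12 : M.e (g b' + 1) b' ∈ I
          · exact ⟨_, h12⟩
          · refine ⟨g b' + 2, ?_⟩
            by_contra h13
            exact h11 (iff_of_false h12 h13)
        · push Not at h3
          have h4 : ∀ b', M.c j b' = M.c j b → M.e (j + 1) b' ∈ I := by
            intro b' hb'
            have h5 := hSd.same (v := M.c j b) h3 hb' hb'
            rw [h5]
            have h6 := h3 b rfl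
            rw [hxor, not_not] at h6
            tauto
          have h5 : ∀ j', M.c j' b0 ≠ M.c j b := by
            intro j' hj'
            have h6 := M.cls _ _ _ _ hj'
            subst h6
            exact hbI _ (h4 b0 hj')
          obtain ⟨b', hb', h6⟩ := hMt.surj _ h5
          refine ⟨b', ?_, h6⟩
          have h7 := M.cls _ _ _ _ h6
          rw [mem_VB]
          exact ⟨j + 1, h4 b' (by rw [← h7]; exact h6.trans (by rw [h7]))⟩
      · rintro ⟨b, hb, rfl⟩
        rw [mem_VV]
        refine ⟨b, g b, ?_, rfl⟩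
        by_cases hbS : b ∈ S
        · have h2 := (hxor b (g b)).1 ⟨hbS, Or.inr rfl⟩
          tauto
        · by_contra hcon
          push Not at hcon
          obtain ⟨i, hi⟩ := (mem_VB M).1 hb
          have h3 : ∀ j, (M.e (j + 1) b ∈ I ↔ M.e (j + 2) b ∈ I) := by
            intro j
            by_contra h4
            exact hbS ((hxor b j).2 h4).1
          rcases fcase i (g b) with h4 | h4 | h4
          · have h5 := h3 (g b + 1)
            rw [f11, f12, ← h4] at h5
            rw [← h4] at hcon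
            exact hcon.2 (h5.2 hi)
          · exact hcon.1 (h4 ▸ hi)
          · exact hcon.2 (h4 ▸ hi)
    rw [h1, Finset.card_image_of_injOn]
    intro b hb b' hb' h
    exact hMt.inj b b' (h0 b hb) (h0 b' hb') h
  -- the number of third corners inside
  have hin : 3 * I.card + 2 * S.card =
      3 * (VB M I).card + (S.filter fun b => M.e (f b) b ∈ I).card := by
    have h1 : S.card = ∑ b, if b ∈ S then 1 else 0 := by
      rw [← Finset.card_filter]
      congr 1
      ext b
      simp
    have h2 : (VB M I).card = ∑ b, if b ∈ VB M I then 1 else 0 := by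
      rw [← Finset.card_filter]
      congr 1
      ext b
      simp
    have h3 : (S.filter fun b => M.e (f b) b ∈ I).card =
        ∑ b, if (b ∈ S ∧ M.e (f b) b ∈ I) then 1 else 0 := by
      rw [← Finset.card_filter]
      congr 1
      ext b
      simp
    rw [← sum_A (M := M) I, h1, h2, h3, Finset.mul_sum, Finset.mul_sum, ← Finset.sum_add_distrib,
      ← Finset.sum_add_distrib]
    refine Finset.sum_congr rfl fun b _ => ?_
    by_cases hb : b ∈ S
    · have h4 := bool3 (fun j => decide (M.e j b ∈ I)) (f b) (g b) (hA.ne b hb) (fun j => by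
        have := hxor b j
        simp only [ne_eq, decide_eq_decide]
        rw [← this]
        exact ⟨fun h => h.2, fun h => ⟨hb, h⟩⟩)
      simp only [decide_eq_true_eq] at h4
      obtain ⟨h5, h6⟩ := h4
      have h7 : b ∈ VB M I := (mem_VB M).2 h6
      rw [if_pos hb, if_pos h7]
      by_cases h8 : M.e (f b) b ∈ I
      · rw [if_pos h8] at h5
        rw [if_pos ⟨hb, h8⟩]
        omega
      · rw [if_neg h8] at h5
        have e1 : ¬(b ∈ S ∧ M.e (f b) b ∈ I) := fun h => h8 h.2
        rw [if_neg e1]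
        omega
    · have h4 := bool2 (fun j => decide (M.e j b ∈ I)) (by
        rintro ⟨j, hj⟩
        apply hb
        have := (hxor b j).2 (by simpa [decide_eq_decide] using hj)
        exact this.1)
      simp only [decide_eq_true_eq] at h4
      have e1 : ¬(b ∈ S ∧ M.e (f b) b ∈ I) := fun h => hb h.1
      rw [h4, if_neg hb, if_neg e1]
      by_cases h5 : b ∈ VB M I
      · have e2 : ∃ i, M.e i b ∈ I := (mem_VB M).1 h5
        rw [if_pos e2, if_pos h5]
        norm_num
      · have e2 : ¬∃ i, M.e i b ∈ I := fun h => h5 ((mem_VB M).2 h)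
        rw [if_neg e2, if_neg h5]
        norm_num
  have hVc := hSph.card
  omega

end Vale.Agent.P039.H96
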