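import Vale.Agent.P039.Bn.L2.Defs

/-!
# The rank inequality for one side of an alternating cycle
-/

namespace Vale.Agent.P039.H96

open Vale.Agent.P039.Bn Module

section lin

variable {X E ι : Type*} [Fintype X] [DecidableEq X] [Fintype E] [Fintype ι]

/-- differences of basis vectors -/
theorem card_le_finrank (Y : Finset X) (T : Submodule ℚ (X → ℚ)) (x0 : X)
    (h : ∀ x ∈ Y, (Pi.single x 1 : X → ℚ) - Pi.single x0 1 ∈ T) : Y.card ≤ finrank ℚ T + 1 := by
  have h1 : Submodule.span ℚ (Set.range fun x : Y => (Pi.single (x : X) 1 : X → ℚ)) ≤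
      T ⊔ Submodule.span ℚ {Pi.single x0 1} := by
    rw [Submodule.span_le]
    rintro _ ⟨x, rfl⟩
    have h2 : (Pi.single (x : X) 1 : X → ℚ) =
        ((Pi.single (x : X) 1 : X → ℚ) - Pi.single x0 1) + Pi.single x0 1 := by abel
    show (Pi.single (x : X) 1 : X → ℚ) ∈ _
    rw [h2]
    exact Submodule.add_mem_sup (h x x.2) (Submodule.mem_span_singleton_self _)
  have h3 : LinearIndependent ℚ fun x : Y => (Pi.single (x : X) 1 : X → ℚ) := by
    have := (Pi.basisFun ℚ X).linearIndependent.comp (fun x : Y => (x : X))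
      Subtype.coe_injective
    convert this using 1
    funext x
    simp
  have h4 := finrank_span_eq_card h3
  rw [Fintype.card_coe] at h4
  have h5 := Submodule.finrank_mono h1
  have h6 := Submodule.finrank_add_le_finrank_add_finrank T
    (Submodule.span ℚ {(Pi.single x0 1 : X → ℚ)})
  have h7 := finrank_span_le_card (R := ℚ) ({(Pi.single x0 1 : X → ℚ)} : Set (X → ℚ))
  rw [Set.toFinset_singleton, Finset.card_singleton] at h7
  omega

/-- relations -/
theorem card_add_finrank_le (v : E → X → ℚ) (z : ι → E → ℚ) (hz : LinearIndependent ℚ z)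
    (hk : ∀ i, ∑ a, z i a • v a = 0) :
    Fintype.card ι + finrank ℚ (Submodule.span ℚ (Set.range v)) ≤ Fintype.card E := by
  have h1 := LinearMap.finrank_range_add_finrank_ker (Fintype.linearCombination ℚ v)
  rw [Fintype.range_linearCombination, finrank_fintype_fun_eq_card] at h1
  have h2 : ∀ i, z i ∈ LinearMap.ker (Fintype.linearCombination ℚ v) := fun i => by
    rw [LinearMap.mem_ker, Fintype.linearCombination_apply]
    exact hk i
  have h3 : LinearIndependent ℚ
      (fun i => (⟨z i, h2 i⟩ : LinearMap.ker (Fintype.linearCombination ℚ v))) := by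
    apply LinearIndependent.of_comp (LinearMap.ker (Fintype.linearCombination ℚ v)).subtype
    exact hz
  have h4 := h3.fintype_card_le_finrank
  omega

end lin

section web

variable {B W V : Type} (M : PMap B W V)

theorem ex_iff (j : Fin 3) (P : Fin 3 → Prop) : (∃ i, P i) ↔ P j ∨ P (j + 1) ∨ P (j + 2) := by
  constructor
  · rintro ⟨i, hi⟩
    rcases fcase i j with rfl | rfl | rfl
    · exact Or.inl hi
    · exact Or.inr (Or.inl hi)
    · exact Or.inr (Or.inr hi)
  · rintro (h | h | h)
    exacts [⟨_, h⟩, ⟨_, h⟩, ⟨_, h⟩]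

/-- functions on the whites which do not jump are constant -/
theorem const_of {α : Type*} (hM : M.Conn) {n : W → α}
    (hn : ∀ b j, n (M.e (j + 1) b) = n (M.e (j + 2) b)) (w w' : W) : n w = n w' := by
  have h0 : ∀ b i, n (M.e i b) = n (M.e 0 b) := by
    intro b i
    have e1 := hn b 0
    have e2 := hn b 1
    have e3 := hn b 2
    revert e1 e2 e3
    fin_cases i
    · intros; rfl
    · intro e1 e2 e3
      exact e3.symm
    · intro e1 e2 e3
      exact e2
  have h1 : ∀ j x y, Relation.EqvGen (fun x y => M.e (j + 1) y = M.e (j + 2) x) x y →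
      n (M.e 0 x) = n (M.e 0 y) := by
    intro j x y h
    induction h with
    | rel x y h => rw [← h0 x (j + 2), ← h, h0]
    | refl x => rfl
    | symm x y _ ih => exact ih.symm
    | trans x y z _ _ ih1 ih2 => exact ih1.trans ih2
  have h2 : ∀ x y, n (M.e 0 x) = n (M.e 0 y) := by
    intro x y
    induction hM x y with
    | rel x y h =>
      obtain ⟨j, hj⟩ := h
      exact h1 j x y (M.exact j x y hj)
    | refl x => rfl
    | symm x y _ ih => exact ih.symm
    | trans x y z _ _ ih1 ih2 => exact ih1.trans ih2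
  have h3 := h2 ((M.e 0).symm w) ((M.e 0).symm w')
  rwa [Equiv.apply_symm_apply, Equiv.apply_symm_apply] at h3

variable [Fintype B] [Fintype W] [Fintype V] [DecidableEq B] [DecidableEq W] [DecidableEq V]

/-- the blacks which touch `X` -/
def VB (X : Finset W) : Finset B := Finset.univ.filter fun b => ∃ i, M.e i b ∈ X

/-- the corners which touch `X` -/
def EX (X : Finset W) : Finset (B × Fin 3) :=
  Finset.univ.filter fun a => M.e (a.2 + 1) a.1 ∈ X ∨ M.e (a.2 + 2) a.1 ∈ X

/-- the faces which touch `X` -/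
def VV (X : Finset W) : Finset V := (EX M X).image fun a => M.c a.2 a.1

omit [Fintype V] [DecidableEq B] [Fintype W] [DecidableEq V] in
theorem mem_VB {X : Finset W} {b : B} : b ∈ VB M X ↔ ∃ i, M.e i b ∈ X := by simp [VB]

omit [Fintype V] [DecidableEq B] [Fintype W] [DecidableEq V] in
theorem mem_EX {X : Finset W} {b : B} {j : Fin 3} :
    (b, j) ∈ EX M X ↔ M.e (j + 1) b ∈ X ∨ M.e (j + 2) b ∈ X := by simp [EX]

omit [Fintype V] [DecidableEq B] [Fintype W] in
theorem mem_VV {X : Finset W} {v : V} :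
    v ∈ VV M X ↔ ∃ b j, (M.e (j + 1) b ∈ X ∨ M.e (j + 2) b ∈ X) ∧ M.c j b = v := by
  simp only [VV, Finset.mem_image, Prod.exists, mem_EX]

/-- the situation: `K` is the set of corners of a cycle, `X` one of its sides -/
structure Side (K : B → Fin 3 → Prop) (X : Finset W) : Prop where
  xor : ∀ b j, K b j ↔ ¬(M.e (j + 1) b ∈ X ↔ M.e (j + 2) b ∈ X)

variable {M} {K : B → Fin 3 → Prop} {X : Finset W}

omit [Fintype B] [Fintype V] [DecidableEq B] [Fintype W] [DecidableEq V] [DecidableEq W] in
/-- around a vertex off the cycle all whites are on the same side -/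
theorem Side.same (h : Side M K X) {j : Fin 3} {v : V} (hK : ∀ b, M.c j b = v → ¬K b j) {x y : B}
    (hxy : M.c j x = M.c j y) (hx : M.c j x = v) : M.e (j + 1) x ∈ X ↔ M.e (j + 1) y ∈ X := by
  have key : ∀ x y, Relation.EqvGen (fun x y => M.e (j + 1) y = M.e (j + 2) x) x y →
      M.c j x = v → (M.e (j + 1) x ∈ X ↔ M.e (j + 1) y ∈ X) := by
    intro x y hg
    induction hg with
    | rel x y hg =>
      intro hx
      have h1 := hK x hx
      rw [h.xor, not_not] at h1
      rw [h1, hg]
    | refl x => intro _; exact Iff.rfl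
    | symm x y hg ih =>
      intro hx
      exact (ih ((M.c_of_eqvGen hg).trans hx)).symm
    | trans x y z hg _ ih1 ih2 =>
      intro hx
      exact (ih1 hx).trans (ih2 ((M.c_of_eqvGen hg).symm.trans hx))
  exact key x y (M.exact j x y hxy) hx

omit [Fintype B] [Fintype V] [DecidableEq B] [Fintype W] [DecidableEq V] [DecidableEq W] in
/-- a vertex touching `X` and a corner not touching `X` is on the cycle -/
theorem Side.on (h : Side M K X) {j : Fin 3} {b b' : B} (hc : M.c j b = M.c j b')
    (hb : ¬(M.e (j + 1) b ∈ X ∨ M.e (j + 2) b ∈ X)) (hb' : M.e (j + 1) b' ∈ X ∨ M.e (j + 2) b' ∈ X) :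
    ∃ b'', M.c j b'' = M.c j b ∧ K b'' j := by
  by_contra hcon
  push Not at hcon
  have hK : ∀ b'', M.c j b'' = M.c j b → ¬K b'' j := hcon
  have h1 := h.same hK hc rfl
  have h2 := hK b' hc.symm
  rw [h.xor, not_not] at h2
  have h3 : M.e (j + 1) b' ∈ X := by
    rcases hb' with h3 | h3
    · exact h3
    · exact h2.2 h3
  exact hb (Or.inl (h1.2 h3))

variable (M) in
/-- the vector of a corner -/
def vec (a : B × Fin 3) : B ⊕ V → ℚ :=
  Pi.single (Sum.inl a.1) 1 - Pi.single (Sum.inr (M.c a.2 a.1)) 1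

variable (M) in
/-- the boundary of a white -/
def zw (w : W) (a : B × Fin 3) : ℚ :=
  (if M.e (a.2 + 1) a.1 = w then 1 else 0) - (if M.e (a.2 + 2) a.1 = w then 1 else 0)

theorem sum_zw (w : W) : ∑ a, zw M w a • vec M a = 0 := by
  have h1 : ∀ i : Fin 3, ∑ a : B × Fin 3,
      (if M.e (a.2 + i) a.1 = w then (1 : ℚ) else 0) • vec M a =
      ∑ j, vec M ((M.e (j + i)).symm w, j) := by
    intro i
    rw [Fintype.sum_prod_type_right]
    refine Finset.sum_congr rfl fun j _ => ?_
    rw [Finset.sum_eq_single ((M.e (j + i)).symm w)]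
    · rw [Equiv.apply_symm_apply, if_pos rfl, one_smul]
    · intro b _ hb
      rw [if_neg, zero_smul]
      rintro h
      exact hb (by rw [← h, Equiv.symm_apply_apply])
    · intro h; exact absurd (Finset.mem_univ _) h
  have h2 : ∀ a, zw M w a • vec M a = (if M.e (a.2 + 1) a.1 = w then (1 : ℚ) else 0) • vec M a -
      (if M.e (a.2 + 2) a.1 = w then (1 : ℚ) else 0) • vec M a := fun a => by
    rw [zw, sub_smul]
  rw [Finset.sum_congr rfl fun a _ => h2 a, Finset.sum_sub_distrib, h1, h1]
  have h3 : ∀ j, vec M ((M.e (j + 1)).symm w, j) = Pi.single (Sum.inl ((M.e (j + 1)).symm w)) 1 -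
      Pi.single (Sum.inr (M.cw j w)) 1 := fun j => rfl
  have h4 : ∀ j, vec M ((M.e (j + 2)).symm w, j) = Pi.single (Sum.inl ((M.e (j + 2)).symm w)) 1 -
      Pi.single (Sum.inr (M.cw j w)) 1 := fun j => by
    show _ - Pi.single (Sum.inr (M.c j ((M.e (j + 2)).symm w))) 1 = _
    rw [M.cw_symm2]
  rw [Finset.sum_congr rfl fun j _ => h3 j, Finset.sum_congr rfl fun j _ => h4 j,
    Finset.sum_sub_distrib, Finset.sum_sub_distrib]
  have h5 : ∀ i : Fin 3, ∑ j, (Pi.single (Sum.inl ((M.e (j + i)).symm w)) 1 : B ⊕ V → ℚ) =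
      ∑ j, (Pi.single (Sum.inl ((M.e j).symm w)) 1 : B ⊕ V → ℚ) := fun i =>
    Equiv.sum_comp (Equiv.addRight i)
      (fun j => (Pi.single (Sum.inl ((M.e j).symm w)) 1 : B ⊕ V → ℚ))
  rw [h5, h5, sub_self]

/-- **the rank inequality for a side** -/
theorem Side.rank (h : Side M K X) (hM : M.Conn) (hX : ∃ w, w ∉ X) {b1 : B} (hb1 : ∃ j, K b1 j)
    (hK : ∀ T : Set (B ⊕ V), Sum.inl b1 ∈ T → (∀ b j, K b j → (Sum.inl b ∈ T ↔
      Sum.inr (M.c j b) ∈ T)) → ∀ b j, K b j → Sum.inl b ∈ T) :
    X.card + ((VB M X).card + (VV M X).card) ≤ (EX M X).card + 1 := by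
  classical
  set T : Submodule ℚ (B ⊕ V → ℚ) :=
    Submodule.span ℚ (Set.range fun a : EX M X => vec M (a : B × Fin 3)) with hT
  let x0 : B ⊕ V := Sum.inl b1
  -- the vertices equivalent to the base vertex
  let Q : Set (B ⊕ V) := {x | (Pi.single x 1 : B ⊕ V → ℚ) - Pi.single x0 1 ∈ T}
  have hQ : ∀ b j, (b, j) ∈ EX M X → (Sum.inl b ∈ Q ↔ Sum.inr (M.c j b) ∈ Q) := by
    intro b j hbj
    have h1 : (Pi.single (Sum.inl b) 1 : B ⊕ V → ℚ) - Pi.single (Sum.inr (M.c j b)) 1 ∈ T :=
      Submodule.subset_span ⟨⟨(b, j), hbj⟩, rfl⟩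
    constructor
    · intro h2
      have h3 := T.sub_mem h2 h1
      rwa [sub_sub_sub_cancel_left] at h3
    · intro h2
      have h3 := T.add_mem h1 h2
      rwa [sub_add_sub_cancel] at h3
  have hKE : ∀ b j, K b j → (b, j) ∈ EX M X := by
    intro b j hk
    rw [h.xor] at hk
    rw [mem_EX]
    by_contra hcon
    push Not at hcon
    exact hk (iff_of_false hcon.1 hcon.2)
  have hx0 : x0 ∈ Q := by
    show (Pi.single x0 1 : B ⊕ V → ℚ) - Pi.single x0 1 ∈ T
    rw [sub_self]
    exact T.zero_mem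
  have hKQ : ∀ b j, K b j → Sum.inl b ∈ Q := hK Q hx0 fun b j hk => hQ b j (hKE b j hk)
  -- propagation
  have hfwd : ∀ b j, (b ∈ VB M X → Sum.inl b ∈ Q) → M.c j b ∈ VV M X →
      Sum.inr (M.c j b) ∈ Q := by
    intro b j hb hv
    by_cases hbj : (b, j) ∈ EX M X
    · refine (hQ b j hbj).1 (hb ?_)
      rw [mem_VB]
      rw [mem_EX] at hbj
      rcases hbj with h1 | h1
      exacts [⟨_, h1⟩, ⟨_, h1⟩]
    · obtain ⟨b', j', h1, h2⟩ := (mem_VV M).1 hv
      have hj := M.cls _ _ _ _ h2
      subst hj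
      rw [mem_EX] at hbj
      obtain ⟨b'', h3, h4⟩ := h.on h2.symm hbj h1
      rw [← h3]
      exact (hQ b'' j' (hKE _ _ h4)).1 (hKQ _ _ h4)
  have hback : ∀ b j, (M.c j b ∈ VV M X → Sum.inr (M.c j b) ∈ Q) → b ∈ VB M X →
      Sum.inl b ∈ Q := by
    intro b j hv hb
    by_cases hbj : (b, j) ∈ EX M X
    · refine (hQ b j hbj).2 (hv ?_)
      rw [mem_VV]
      exact ⟨b, j, (mem_EX M).1 hbj, rfl⟩
    · rw [mem_VB, ex_iff j] at hb
      rw [mem_EX] at hbj
      push Not at hbj
      have h1 : M.e j b ∈ X := by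
        rcases hb with h1 | h1 | h1
        exacts [h1, absurd h1 hbj.1, absurd h1 hbj.2]
      refine hKQ b (j + 1) ?_
      rw [h.xor, f11, f12]
      intro hcon
      exact hbj.2 (hcon.2 h1)
  have hall : ∀ b, b ∈ VB M X → Sum.inl b ∈ Q := by
    have hstep : ∀ x y, Relation.EqvGen (fun x y => ∃ j, M.c j x = M.c j y) x y →
        ((x ∈ VB M X → Sum.inl x ∈ Q) ↔ (y ∈ VB M X → Sum.inl y ∈ Q)) := by
      intro x y hg
      induction hg with
      | rel x y hg =>
        obtain ⟨j, hj⟩ := hg
        constructor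
        · intro hx
          exact hback y j (by rw [← hj]; exact hfwd x j hx)
        · intro hy
          exact hback x j (by rw [hj]; exact hfwd y j hy)
      | refl x => exact Iff.rfl
      | symm x y _ ih => exact ih.symm
      | trans x y z _ _ ih1 ih2 => exact ih1.trans ih2
    exact fun b => (hstep b1 b (hM b1 b)).1 fun _ => hx0
  have hallV : ∀ v, v ∈ VV M X → Sum.inr v ∈ Q := by
    intro v hv
    obtain ⟨j, b, rfl⟩ := M.surj v
    exact hfwd b j (hall b) hv
  -- the number of vertices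
  have hY := card_le_finrank ((VB M X).disjSum (VV M X)) T x0 (by
    intro x hx
    rcases Finset.mem_disjSum.1 hx with ⟨b, hb, rfl⟩ | ⟨v, hv, rfl⟩
    · exact hall b hb
    · exact hallV v hv)
  rw [Finset.card_disjSum] at hY
  -- the relations
  have hz : LinearIndependent ℚ
      (fun (w : X) (a : EX M X) => zw M (w : W) (a : B × Fin 3)) := by
    rw [Fintype.linearIndependent_iff]
    intro g hg
    let n : W → ℚ := fun w => if hw : w ∈ X then g ⟨w, hw⟩ else 0
    have hn : ∀ a : B × Fin 3, ∑ w : X, g w * zw M (w : W) a =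
        n (M.e (a.2 + 1) a.1) - n (M.e (a.2 + 2) a.1) := by
      intro a
      have h1 : ∀ w0 : W, ∑ w : X, g w * (if w0 = (w : W) then (1 : ℚ) else 0) = n w0 := by
        intro w0
        by_cases hw : w0 ∈ X
        · rw [Finset.sum_eq_single ⟨w0, hw⟩]
          · simp [n, hw]
          · intro w _ hw'
            rw [if_neg, mul_zero]
            rintro rfl
            exact hw' rfl
          · intro h; exact absurd (Finset.mem_univ _) h
        · have : n w0 = 0 := by simp [n, hw]
          rw [this]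
          refine Finset.sum_eq_zero fun w _ => ?_
          rw [if_neg, mul_zero]
          rintro rfl
          exact hw w.2
      rw [← h1, ← h1, ← Finset.sum_sub_distrib]
      refine Finset.sum_congr rfl fun w _ => ?_
      rw [zw, mul_sub]
    have hn0 : ∀ b j, n (M.e (j + 1) b) = n (M.e (j + 2) b) := by
      intro b j
      by_cases hbj : (b, j) ∈ EX M X
      · have h1 := congrFun hg ⟨(b, j), hbj⟩
        rw [Finset.sum_apply] at h1
        simp only [Pi.smul_apply, smul_eq_mul, Pi.zero_apply] at h1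
        have h2 := hn (b, j)
        rw [h1] at h2
        exact (sub_eq_zero.1 h2.symm)
      · rw [mem_EX] at hbj
        push Not at hbj
        simp [n, hbj.1, hbj.2]
    obtain ⟨w1, hw1⟩ := hX
    intro w
    have h1 := const_of M hM hn0 (w : W) w1
    have h2 : n (w : W) = g w := by simp [n]
    have h3 : n w1 = 0 := by simp [n, hw1]
    rw [← h2, h1, h3]
  have hR := card_add_finrank_le (fun a : EX M X => vec M (a : B × Fin 3)) _ hz (by
    intro w
    have h1 : ∑ a : EX M X, zw M (w : W) (a : B × Fin 3) • vec M (a : B × Fin 3) =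
        ∑ a ∈ EX M X, zw M (w : W) a • vec M a :=
      Finset.sum_coe_sort (EX M X) (fun a => zw M (w : W) a • vec M a)
    rw [h1, ← sum_zw (M := M) (w : W)]
    refine Finset.sum_subset (Finset.subset_univ _) fun a _ ha => ?_
    have h2 : ¬(M.e (a.2 + 1) a.1 ∈ X ∨ M.e (a.2 + 2) a.1 ∈ X) := fun h => ha ((mem_EX M).2 h)
    push Not at h2
    rw [zw, if_neg, if_neg, sub_zero, zero_smul]
    · rintro h3; exact h2.2 (h3 ▸ w.2)
    · rintro h3; exact h2.1 (h3 ▸ w.2))
  rw [Fintype.card_coe, Fintype.card_coe, ← hT] at hR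
  omega

end web

end Vale.Agent.P039.H96
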